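import Crest.Agent.X212.Ell97.Main
import Crest.Agent.X212.Sob92.Bil

/-!
# Row 212, TAUB-S (helper74): coercivity for a large term of order zero; quadratic equations
-/

set_option autoImplicit false
set_option linter.unusedSectionVars false
noncomputable section
open scoped Manifold ContDiff Topology InnerProductSpace
open MeasureTheory Set Function Filter

namespace Crest.Agent.X212.Tbs74
open An An.Pre Sob92 Ell97

variable {E : Type} [NormedAddCommGroup E] [NormedSpace ℝ E] [FiniteDimensional ℝ E]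
  [MeasurableSpace E] [BorelSpace E]
  {HM : Type} [TopologicalSpace HM] {I : ModelWithCorners ℝ E HM} [I.Boundaryless]
  {M : Type} [TopologicalSpace M] [ChartedSpace HM M] [IsManifold I ∞ M]
  [MeasurableSpace M] {ι : Type} [Fintype ι]
  {V W : Type} [NormedAddCommGroup V] [InnerProductSpace ℝ V] [FiniteDimensional ℝ V]
  [NormedAddCommGroup W] [InnerProductSpace ℝ W] [FiniteDimensional ℝ W]
  [T2Space M] [BorelSpace M] [SecondCountableTopology M] [CompactSpace M]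

theorem inner_le2 (S T : V →L[ℝ] W) (v : V) : |⟪S v, T v⟫_ℝ| ≤ ‖S‖ * ‖T‖ * ‖v‖ ^ 2 :=
  (abs_real_inner_le_norm _ _).trans ((mul_le_mul (S.le_opNorm v) (T.le_opNorm v) (norm_nonneg _)
    (by positivity)).trans_eq (by ring))

/-- **coercivity** -/
theorem coe (F : Fr I M ι) {σ : ι → M → V →L[ℝ] W} {B T : M → V →L[ℝ] W}
    (hσ : ∀ a, Sm I (σ a)) (hB : Continuous B) (hT : Sm I T)
    (hs : ∀ a x v w, ⟪σ a x v, T x w⟫_ℝ = ⟪σ a x w, T x v⟫_ℝ) :
    ∃ K, ∀ u, Sm I u → ∀ t > K, (∀ x, ⟪F.op σ B u x, T x (u x)⟫_ℝ ≤ -t * ‖u x‖ ^ 2) → u = 0 := by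
  let k : M → ℝ := fun x => ∑ a, (|F.dv a x| * (‖σ a x‖ * ‖T x‖) + ‖F.D a (σ a) x‖ * ‖T x‖ +
    ‖σ a x‖ * ‖F.D a T x‖) / 2 + ‖B x‖ * ‖T x‖
  have c1 := fun a => (hσ a).continuous
  have c2 := fun a => (F.sm_D (hσ a) a).continuous
  have c3 := fun a => (F.sm_D hT a).continuous
  have c4 := hT.continuous
  have c5 := fun a => (F.dv_sm a).continuous
  obtain ⟨K, hK⟩ := (isCompact_range (show Continuous k by fun_prop)).bddAbove
  refine ⟨K, fun u hu t ht h => ?_⟩
  let g : ι → M → ℝ := fun a x => innerSL ℝ (σ a x (u x)) (T x (u x))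
  have s1 := fun a => (hσ a).clm_apply hu
  have s2 := hT.clm_apply hu
  have sg : ∀ a, Sm I (g a) := fun a =>
    ((innerSL ℝ : W →L[ℝ] W →L[ℝ] ℝ).contMDiff.comp (s1 a)).clm_apply s2
  have dg : ∀ a x, F.D a (g a) x = 2 * ⟪σ a x (F.D a u x), T x (u x)⟫_ℝ +
      ⟪F.D a (σ a) x (u x), T x (u x)⟫_ℝ + ⟪σ a x (u x), F.D a T x (u x)⟫_ℝ := fun a x => by
    rw [D_def, dv_bil (innerSL ℝ) (md (s1 a) x) (md s2 x), dv_app (md (hσ a) x) (md hu x),
      dv_app (md hT x) (md hu x)]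
    change ⟪_, _⟫_ℝ + ⟪_, _⟫_ℝ = _
    simp only [inner_add_left, inner_add_right, hs a x (u x) (dv I _ u x), D_def]
    ring
  have i : ∀ {f : M → ℝ}, Continuous f → Integrable f F.μ :=
    fun hf => hf.integrable_of_hasCompactSupport (.of_compactSpace _)
  have c6 := fun a => (sg a).continuous
  have c7 := fun a => (F.sm_D (sg a) a).continuous
  have c8 := hu.continuous
  have z : ∫ x, ∑ a, (F.D a (g a) x + F.dv a x * g a x) ∂F.μ = 0 := by
    rw [integral_finsetSum _ fun a _ => i (by fun_prop)]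
    refine Finset.sum_eq_zero fun a _ => ?_
    rw [integral_add (i (c7 a)) (i (by fun_prop)), F.ibp a _ (sg a) (.of_compactSpace _),
      neg_add_cancel]
  have le : ∀ x, 2 * (t - K) * ‖u x‖ ^ 2 ≤ -∑ a, (F.D a (g a) x + F.dv a x * g a x) := fun x => by
    have e1 := h x
    have e2 := mul_le_mul_of_nonneg_right (hK ⟨x, rfl⟩) (sq_nonneg ‖u x‖)
    have e3 := (abs_le.1 (inner_le2 (B x) (T x) (u x))).1
    have e4 : ∑ a, (F.D a (g a) x + F.dv a x * g a x) ≤ ∑ a, (2 * ⟪σ a x (F.D a u x), T x (u x)⟫_ℝ +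
        (|F.dv a x| * (‖σ a x‖ * ‖T x‖) + ‖F.D a (σ a) x‖ * ‖T x‖ + ‖σ a x‖ * ‖F.D a T x‖) *
          ‖u x‖ ^ 2) := Finset.sum_le_sum fun a _ => by
      have d1 := (abs_le.1 (inner_le2 (F.D a (σ a) x) (T x) (u x))).2
      have d2 := (abs_le.1 (inner_le2 (σ a x) (F.D a T x) (u x))).2
      have d3 := mul_le_mul_of_nonneg_left (inner_le2 (σ a x) (T x) (u x)) (abs_nonneg (F.dv a x))
      have d4 := le_abs_self (F.dv a x * g a x)
      rw [abs_mul] at d4
      rw [dg]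
      simp only [g, innerSL_apply_apply] at d4 ⊢
      linarith
    simp only [Pre.op, inner_add_left, sum_inner] at e1
    simp only [k, add_mul, ← Finset.sum_div, div_mul_eq_mul_div, Finset.sum_mul] at e2
    simp only [Finset.sum_add_distrib, ← Finset.mul_sum, add_mul] at e2 e4 ⊢
    linarith
  have p : 0 ≤ fun x => 2 * (t - K) * ‖u x‖ ^ 2 := fun x => by
    have := sub_pos.2 ht; positivity
  have cφ : Continuous fun x => 2 * (t - K) * ‖u x‖ ^ 2 := by fun_prop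
  have e := integral_mono (i cφ) (i (by fun_prop)) le
  rw [integral_neg, z, neg_zero] at e
  have := openPos F.toPre
  have e0 := (cφ.ae_eq_iff_eq F.μ continuous_zero).1
    ((integral_eq_zero_iff_of_nonneg p (i cφ)).1 (e.antisymm (integral_nonneg p)))
  funext x
  have e1 := congrFun e0 x
  have := (sub_pos.2 ht).ne'
  simpa [this] using e1

variable {F : Fr I M ι} {A : Op M ι V W} {C C' : ℕ → ℝ}

/-- **quadratic equations with a surjective linear part** -/
theorem exq (hF : F.Tame C) (hA : A.Good F C') (hc : A.Cliff F) (h0 : kerS F (A.adj F) = ⊥)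
    {β : M → V →L[ℝ] V →L[ℝ] W} (hβ : F.Cb β) (hm : Maps₂ A.p A.p A.q β)
    {N : Type} [NormedAddCommGroup N] [NormedSpace ℝ N] (L : N →L[ℝ] W) :
    ∃ η > 0, ∀ f : M → N, Sm I f → F.CB 7 f η → (∀ x, A.q x (L (f x)) = L (f x)) →
      ∃ u : Sec I A.p, ∀ x, A.app F u.1 x + β x (u.1 x) (u.1 x) = L (f x) := by
  have := FiniteDimensional.complete ℝ W
  have := FiniteDimensional.complete ℝ V
  have hS := Sup.of_tame hF
  let Q := fun j => F.bilH j j A.p A.p A.q j β
  let Φ : F.H 8 A.p → F.H 7 A.q := fun x => A.H F 7 x + F.incl 8 7 A.q (Q 8 x x)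
  have d : HasStrictFDerivAt Φ (A.H F 7) 0 := by
    have d1 := (Q 8).hasStrictFDerivAt.clm_apply (hasStrictFDerivAt_id (0 : F.H 8 A.p))
    have d2 := (A.H F 7).hasStrictFDerivAt.add ((F.incl 8 7 A.q).hasStrictFDerivAt.comp _ d1)
    exact d2.congr_fderiv (by simp)
  have e := d.map_nhds_eq_of_surj (LinearMap.range_eq_top.2 ((surj_iff hF hA hc 7).2 h0))
  obtain ⟨ε, ε0, hε⟩ := Metric.mem_nhds_iff.1 (e ▸ range_mem_map : range Φ ∈ 𝓝 (Φ 0))
  let B : N →L[ℝ] ℝ →L[ℝ] W := (ContinuousLinearMap.lsmul ℝ ℝ).flip ∘L L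
  let K := cK ι 7 * ‖B‖ * F.nrm 7 fun _ => (1 : ℝ)
  have K0 : 0 ≤ K := by
    have := cK_nonneg (ι := ι) 7
    have := nrm_nonneg (F := F.toPre) 7 fun _ => (1 : ℝ)
    positivity
  refine ⟨ε / (K + 1), by positivity, fun f sf hf qf => ?_⟩
  let w : Sec I A.q := ⟨fun x => L (f x), L.contMDiff.comp sf, .of_compactSpace _, qf⟩
  obtain ⟨x, hx⟩ : F.toH 7 A.q w ∈ range Φ := hε (by
    have n := nrm_mul B sf contMDiff_const hf
      (FL_of_hcs 7 (u := fun _ => (1 : ℝ)) contMDiff_const (.of_compactSpace _))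
    simp only [B, ContinuousLinearMap.comp_apply, ContinuousLinearMap.flip_apply,
      ContinuousLinearMap.lsmul_apply, one_smul] at n
    simp only [Φ, map_zero, add_zero, mem_ball_zero_iff, norm_toH]
    refine n.trans_lt ?_
    rw [abs_of_pos (by positivity), mul_right_comm]
    change K * _ < _
    rw [mul_div_assoc', div_lt_iff₀ (by positivity)]
    linarith)
  obtain ⟨u, rfl⟩ := sec_of_all hF (x := x) fun j hj => by
    induction j, hj using Nat.le_induction with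
    | base => exact ⟨x, incl_self x⟩
    | succ j hj ih =>
      obtain ⟨y, rfl⟩ := ih
      obtain ⟨z, hz, -⟩ := reg_up hF hA hc.1 (k := 7) (j := j) (by omega)
        (x := F.incl j 8 A.p y) (w := F.toH j A.q w - Q j y y) (by
          rw [map_sub, incl_toH (by omega), ← hx, ← incl_incl (j := 8) (p := A.q) hj (by omega),
            incl_bilH hS (Lev.self (by omega)) (Lev.self (by omega)) hj hj hj hβ hm,
            add_sub_cancel_right])
      exact ⟨z, hz⟩
  obtain ⟨v, h1, h2⟩ := rep_bilH hS (Lev.self (k := 8) (by omega)) hβ hm u u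
  simp only [Φ, Q, h2, H_toH hA, incl_toH (show 7 ≤ 8 by omega), ← map_add] at hx
  refine ⟨u, fun x => ?_⟩
  have := congrFun (congrArg Subtype.val (toH_inj F 7 _ hx)) x
  rwa [Submodule.coe_add, h1] at this

variable (I) in
/-- isometries that are symmetric for the symbol -/
structure Sy (A : Op M ι V W) (B : M → V →L[ℝ] W) : Prop where
  sm : Sm I B
  p : ∀ x v, B x (A.p x v) = B x v
  q : ∀ x v, A.q x (B x v) = B x v
  sym : ∀ a x v w, ⟪A.σ a x v, B x w⟫_ℝ = ⟪A.σ a x w, B x v⟫_ℝ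
  iso : ∀ x v w, ⟪B x v, B x w⟫_ℝ = ⟪A.p x v, w⟫_ℝ

variable {B : M → V →L[ℝ] W}

theorem Sy.adj (h : Sy I A B) (hA : A.Good F C') (hc : A.Cliff F) (hP : ∀ x, ∃ a, F.P a a x ≠ 0) :
    Sy I (A.adj F) fun x => Op.tr (B x) := by
  have p : ∀ x y, Op.tr (B x) (A.q x y) = Op.tr (B x) y := fun x y => ext_inner_left ℝ fun v => by
    rw [inner_tr, inner_tr, ← hA.q.symm, h.q]
  have iso : ∀ x y z, ⟪Op.tr (B x) y, Op.tr (B x) z⟫_ℝ = ⟪A.q x y, z⟫_ℝ := fun x y z => by
    obtain ⟨a, ha⟩ := hP x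
    have e1 : ∀ y z, ⟪Op.tr (A.σ a x) y, Op.tr (A.σ a x) z⟫_ℝ = F.P a a x * ⟪A.q x y, z⟫_ℝ :=
      fun y z => by
        have := hc.2 a a x y z
        simp only [Op.adj, neg_apply, inner_neg_neg] at this
        linarith
    have e2 : ∀ y, F.P a a x • Op.tr (B x) y = Op.tr (A.σ a x) (B x (Op.tr (A.σ a x) y)) :=
      fun y => ext_inner_left ℝ fun v => by
        rw [inner_tr, h.sym, real_inner_comm, ← inner_tr, real_inner_comm, e1, real_inner_smul_right,
          inner_tr, hA.q.symm, h.q, real_inner_comm]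
    refine mul_left_cancel₀ ha (mul_left_cancel₀ ha ?_)
    rw [← real_inner_smul_left, ← real_inner_smul_right, e2, e2, e1, h.q, h.iso, inner_tr, hA.σp,
      ← inner_tr, e1]
  refine ⟨(trL V W).contMDiff.comp h.sm, p, fun x y => ext_inner_left ℝ fun v => ?_,
    fun a x y z => ?_, iso⟩
  · exact (hA.p.symm x v _).symm.trans (by rw [inner_tr, inner_tr, h.p])
  · have e : ∀ y, A.q x y = B x (Op.tr (B x) y) := fun y => ext_inner_right ℝ fun v => by
      rw [← iso, inner_tr]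
    have e' : ∀ y z, ⟪Op.tr (A.σ a x) y, z⟫_ℝ = ⟪A.σ a x z, B x (Op.tr (B x) y)⟫_ℝ := fun y z => by
      rw [tr_inner, ← e, ← hA.q.symm, hA.qσ, real_inner_comm]
    simp only [Op.adj, neg_apply, inner_neg_left, e', h.sym a x (Op.tr (B x) z)]

/-- the cokernel vanishes -/
theorem Sy.coker (h : Sy I A B) (hF : F.Tame C) (hA : A.Good F C') (hc : A.Cliff F)
    (hP : ∀ x, ∃ a, F.P a a x ≠ 0) {D : V →L[ℝ] V} (hD : ∀ v, ‖v‖ ^ 2 / 2 ≤ ⟪D v, v⟫_ℝ) :
    ∃ s₀ : ℝ, ∀ s ≥ s₀, ∀ B' : M → V →L[ℝ] W,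
      (∀ x v, A.p x v = v → B' x v = A.B x v + s • B x (D v)) →
        kerS F (Op.adj F ⟨A.p, A.q, A.σ, B'⟩) = ⊥ := by
  have h' := h.adj hA hc hP
  obtain ⟨_, g⟩ := good_adj hF hA
  obtain ⟨K, hK⟩ := coe F (fun a => (g.σ a).1) g.B.1.continuous h'.sm h'.sym
  refine ⟨2 * |K| + 1, fun s hs B' hB => (Submodule.eq_bot_iff _).2 fun y hy => Subtype.ext ?_⟩
  have := le_abs_self K
  have := abs_nonneg K
  refine hK y.1 y.2.1 (s / 2) (by linarith) fun x => ?_
  set z := Op.tr (B x) (y.1 x) with hz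
  have pz : A.p x z = z := h'.q x _
  have e0 := congrArg (⟪·, z⟫_ℝ) (congrFun (mem_kerS.1 hy) x)
  have e1 : ‖z‖ ^ 2 = ‖y.1 x‖ ^ 2 := by
    rw [← real_inner_self_eq_norm_sq, h'.iso, show (A.adj F).p x _ = _ from y.2.2.2 x,
      real_inner_self_eq_norm_sq]
  have e2 := mul_le_mul_of_nonneg_left (hD z) (show 0 ≤ s by linarith)
  have e3 : ⟪y.1 x, B x (D z)⟫_ℝ = ⟪D z, z⟫_ℝ := by rw [← tr_inner, real_inner_comm]
  simp only [Op.app, Pre.op, Op.adj, inner_add_left, ContinuousLinearMap.comp_apply, hA.p.symm, pz,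
    sub_apply, inner_sub_left, tr_inner, hB x z pz, inner_add_right,
    real_inner_smul_right, e3, Pi.zero_apply, inner_zero_left] at e0 ⊢
  rw [← e1]
  linarith

end Crest.Agent.X212.Tbs74
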