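import Crest.Agent.X212.Rad94.Mrk
import Crest.Agent.X212.Taub88.Tb
import Crest.Agent.X212.Sw87.MoE

/-!
# Row 212, TAUB-S (helper74): definitions and leaves
-/

set_option autoImplicit false
set_option linter.unusedSectionVars false
noncomputable section
open scoped Manifold ContDiff Topology InnerProductSpace
open MeasureTheory Set Function Filter

namespace Crest.Agent.X212.Tbs74
open An Sw Rad94
open M (Mf)
open Lab56 (C8)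
open Taub88 (Ak Th Qf)

variable {κ lam ν : Type} [Fintype κ] [Fintype lam] [Fintype ν] [DecidableEq ν] {X : Mf 4}
  (b : Bg X.I X.M κ lam ν 0)

/-- scaling of the spinor -/
def sc (c : Cfg X.M κ ν) (s : ℝ) : Cfg X.M κ ν := ⟨c.a, fun x => s • c.Φ x⟩

/-- another forcing form -/
abbrev wo (om : X.M → F2 κ) : Bg X.I X.M κ lam ν 0 := { b with om := om }

/-- configurations with a unit spinor -/
structure U1 (c : Cfg X.M κ ν) : Prop where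
  ok : b.OK
  w : b.w = 1
  adm : b.Adm c
  one : ∀ x, ‖c.Φ x‖ = 1

/-- `c` is uniformly close to `c₀` and in the algebraic gauge -/
structure Nr (c₀ : Cfg X.M κ ν) (δ : ℝ) (c : Cfg X.M κ ν) : Prop where
  a : ∀ i x, |c.a i x - c₀.a i x| ≤ δ
  Φ : ∀ x, ‖c.Φ x - c₀.Φ x‖ ≤ δ
  g : ∀ x, ⟪b.m.J (c₀.Φ x), c.Φ x⟫_ℝ = 0

/-- an almost Kaehler background with a unit pure spinor -/
structure TP (θ : Option κ → Option κ → X.M → ℝ) (u : X.M → Eu ν) : Prop where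
  ok : b.OK
  w : b.w = 1
  ms : b.ms = 0
  ak : Ak b.B b.F θ
  sm : Sm X.I u
  one : ∀ x, ‖u x‖ = 1
  Q : ∀ x, Qf b.B.o b.m.p b.m.J b.m.ρ θ x (u x) = u x

/-- the canonical connection -/
def Par (c : Cfg X.M κ ν) : Prop :=
  ∀ i x, ⟪b.m.J (c.Φ x), Wz78.nab X.I b.F.e (b.W c) i c.Φ x⟫_ℝ = 0

variable (κ lam ν)

/-- **T-LU**: local uniqueness in the algebraic gauge -/
def LuStmt : Prop := ∀ (X : Mf 4) [CompactSpace X.M] (b : Bg X.I X.M κ lam ν 0) c, U1 b c →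
  ∃ s₀, ∀ s ≥ s₀, ∃ δ > 0, ∀ c₁ c₂, b.Adm c₁ → b.Adm c₂ → Nr b (sc c s) δ c₁ → Nr b (sc c s) δ c₂ →
    b.eD c₁ = b.eD c₂ → b.eC c₁ = b.eC c₂ → c₁ = c₂

/-- **T-EX**: existence -/
def ExStmt : Prop := ∀ (X : Mf 4) [CompactSpace X.M] (b : Bg X.I X.M κ lam ν 0) c, U1 b c →
  ∃ s₀, ∀ s ≥ s₀, ∃ j : ℕ, ∃ η > 0, ∀ f, SD b f → b.F.CB j f η → ∃ c', b.Adm c' ∧
    b.eD c' = b.eD (sc c s) ∧ ∀ x, b.eC c' x = b.eC (sc c s) x + f x

/-- **T-U0**: Taubes' uniqueness theorem -/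
def U0Stmt : Prop := ∀ (X : Mf 4) [CompactSpace X.M] (b : Bg X.I X.M κ lam ν 0) θ c, TP b θ c.Φ →
  b.Adm c → Par b c → b.eD c = 0 ∧
    (∀ x s, b.qd x (c.Φ x) (c.Φ x) s = -θ s.1 s.2 x / 8) ∧
    ∃ s₀, ∀ s ≥ s₀, ∀ c', b.Adm c' → b.eD c' = 0 → b.eC c' = b.eC (sc c s) →
      ∃ u, Gau X.I u ∧ c' = b.act u (sc c s)

/-- **T-CL**: solutions for small forcing forms are close to the unique solution -/
def ClStmt : Prop := ∀ (X : Mf 4) [CompactSpace X.M] [ConnectedSpace X.M] (b : Bg X.I X.M κ lam ν 0) c₀,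
  b.OK → b.w = 1 → b.ms = 0 → b.Sol ⟨0, 0, 0⟩ c₀ → (∀ x, c₀.Φ x ≠ 0) →
  (∀ c, b.Sol ⟨0, 0, 0⟩ c → ∃ u, Gau X.I u ∧ c = b.act u c₀) → ∀ δ > 0, ∃ j : ℕ, ∃ η > 0,
    ∀ f, SD b f → b.F.CB j f η → ∀ c, (sft b f 1).Sol ⟨0, 0, 0⟩ c →
      ∃ u, Gau X.I u ∧ Nr b c₀ δ (b.act u c)

/-- **T-AN**: the analytic part -/
def AnStmt : Prop := ∀ (X : Mf 4) [CompactSpace X.M] [ConnectedSpace X.M] (b : Bg X.I X.M κ lam ν 0)
  θ u, TP b θ u → ∃ a, b.Adm ⟨a, u⟩ ∧ ∃ r₀, ∀ r ≥ r₀, ∀ om, (∀ x, om x =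
    b.p2 x (b.fc ⟨a, u⟩ x + (r / 2) • WithLp.toLp 2 fun s => θ s.1 s.2 x)) → Stb (wo b om)

/-- **T-CAN**: the canonical module, in a small ambient space -/
def CanStmt : Prop := ∀ (X : Mf 4) [CompactSpace X.M] (ι lam l : Type) [Fintype ι] [DecidableEq ι] [Fintype lam]
  [Fintype l] [DecidableEq l] (B : Base X.M ι lam) θ, 6 ≤ Fintype.card l → B.OK X.I → Th X.I B θ →
  ∃ (m : C8 X.M ι l) (u : X.M → Eu (l ⊕ l)), m.On X.I (fun x => Matrix.of fun a b => B.P a b x) univ ∧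
    Sm X.I u ∧ (∀ x, ‖u x‖ = 1) ∧ ∀ x, Qf B.o m.re.p m.re.J m.re.ρ θ x (u x) = u x

/-- **T-GEO**: the model of a symplectic manifold -/
def GeoStmt : Prop := CanStmt → AnStmt Sw87.Mo.κ0 Sw87.Mo.L0 Sw87.Mo.ν0 →
  Bor5.T.Taub (Sw87.Mo.QM Rad94.Ex1)

end Crest.Agent.X212.Tbs74
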