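import Crest.Agent.X212.Tbs74.Pt
import Crest.Agent.X212.Tbs74.Defs

/-!
# Row 212, TAUB-S (helper74): existence and local uniqueness
-/

set_option autoImplicit false
set_option linter.unusedSectionVars false
noncomputable section
open scoped Manifold ContDiff Topology InnerProductSpace
open MeasureTheory Set Function Filter Finset

namespace Crest.Agent.X212.Tbs74
open An An.Pre Sob92 Ell97 Sw Map77.S Rad94
open Map77 hiding Cf Ef
open M (Mf)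

variable {κ lam ν : Type} [Fintype κ] [Fintype lam] [Fintype ν] [DecidableEq ν] {X : Mf 4}
  [CompactSpace X.M] {b : Bg X.I X.M κ lam ν 0} {c : Cfg X.M κ ν}

theorem cb_of {N : Type} [NormedAddCommGroup N] [NormedSpace ℝ N] {f : X.M → N} (h : Sm X.I f) :
    b.F.Cb f := Cb_of_hcs h (.of_compactSpace _)

theorem adm_sc (h : b.Adm c) (s : ℝ) : b.Adm (sc c s) :=
  ⟨h.sa, (contMDiff_const (I' := 𝓘(ℝ, ℝ)) (c := s)).smul h.sΦ, h.pa, fun x => by simp only [sc, map_smul, h.pΦ]⟩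

theorem good_full (hb : b.OK) (h : b.Adm c) : ∃ C, b.F.Tame C ∧ (full b c).Good b.F C :=
  have H := (inB hb).full (c := fun _ => c) (fun i _ _ => cb_of (h.sa i)) fun _ _ => cb_of h.sΦ
  good_of hb.tame.choose_spec (H.p () trivial) (H.q () trivial) (fun a => H.σ a () trivial)
    (H.B () trivial) (Op40.alg_full hb)

theorem U1.sy (h : U1 b c) (c' : Cfg X.M κ ν) : Sy X.I (full b c') (BB b c.Φ) := by
  have H := inB h.ok
  have hΦ : (cb (fun _ : Unit => b.F.toPre) univ).mem fun _ => c.Φ := fun _ _ => cb_of h.adm.sΦ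
  have h1 := Cls.comp H.pE (Cls.comp (Cls.pr2 (Cls.pr2 (Cls.sum fun i =>
    Cls.clm (ContinuousLinearMap.smulRightL ℝ (Cf κ ν) (Eu ν) (co i))
      (Cls.app _ (H.ρ i) (Cls.app _ H.jp hΦ))) (Cls.smul (Cls.const _ (-2 : ℝ)) (Cls.comp
        (Cls.add _ (Cls.app _ H.qL hΦ) (Cls.app _ (Cls.flip H.qL) hΦ)) (Cls.const _ sp))))
    (Cls.comp (Cls.clm (innerSL ℝ) (Cls.app _ H.J hΦ)) (Cls.const _ sp))) H.pC)
  refine ⟨(h1 () trivial).choose_spec.1, fun x v => ?_, fun x v => (Op40.prjE h.ok).idem x _,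
    fun a x v w => ?_, fun x => iso_BB h.ok (h.adm.pΦ x) (h.one x)⟩
  · exact congrArg (fun z => pE b x (B0 b c.Φ x z)) ((Op40.prjC h.ok).idem x v)
  · rw [sym_BB h.ok (h.adm.pΦ x), sym_BB h.ok (h.adm.pΦ x), add_comm]

theorem P_ne (hb : b.OK) (x : X.M) : ∃ a, b.F.P a a x ≠ 0 := by
  by_contra! h
  have := hb.B.rk x
  rw [← hb.G.P, sum_eq_zero fun a _ => h a] at this
  norm_num at this

theorem nsq (v : Cf κ ν) : ‖v‖ ^ 2 = ∑ i, co i v ^ 2 + ‖sp v‖ ^ 2 := by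
  rw [← real_inner_self_eq_norm_sq, inner2, inner_fm, real_inner_self_eq_norm_sq]
  simp only [real_inner_self_eq_norm_sq, Real.norm_eq_abs, sq_abs, co_apply]

theorem rC_ge (v : Cf κ ν) : ‖v‖ ^ 2 / 2 ≤ ⟪rC (1 / 2) v, v⟫_ℝ := by
  rw [← real_inner_self_eq_norm_sq, inner2, inner2, f2_rC, s2_rC, real_inner_smul_left]
  linarith [real_inner_self_nonneg (x := f2 _ _ v)]

theorem app_β (hb : b.OK) (h : b.Adm c) {u : X.M → Cf κ ν} (hu : Sm X.I u)
    (hp : ∀ x, pC b x (u x) = u x) (x : X.M) : f2 _ _ ((full b c).app b.F u x) + β0 b x (u x) (u x) =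
      i1 _ _ (b.eD (vr c u 1) x - b.eD c x) + i2 _ _ (b.eC (vr c u 1) x - b.eC c x) := by
  rw [Op40.app_full hb h u hu hp, β0_apply b hb _ _ (maps_s2 x _ (hp x))]
  simp only [map_add, map_sub, f2_i1, f2_i2]
  abel

theorem adm_vr (h : b.Adm c) {u : X.M → Cf κ ν} (hu : Sm X.I u) (hp : ∀ x, pC b x (u x) = u x) :
    b.Adm (vr c u 1) := by
  refine ⟨fun i => (h.sa i).add (contMDiff_const.mul ((co i).contMDiff.comp hu)),
    h.sΦ.add ((contMDiff_const (I' := 𝓘(ℝ, ℝ)) (c := (1 : ℝ))).smul (sp.contMDiff.comp hu)), fun i x => ?_, fun x => ?_⟩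
  · have e := congrArg (· i) (maps_f2 x _ (hp x))
    simp only [Bg.p1, idx_apply, ContinuousLinearMap.id_apply, smul_eq_mul] at e
    simp only [vr, mul_add, one_mul, sum_add_distrib, h.pa, co_apply, e]
  · simp only [vr, map_add, one_smul, h.pΦ, show b.pp x (sp (u x)) = _ from maps_s2 x _ (hp x)]

variable (κ lam ν) in
/-- **T-EX** -/
theorem exStmt : ExStmt κ lam ν := fun X _ b c h => by
  obtain ⟨_, hF, g⟩ := good_full h.ok (adm_sc h.adm 0)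
  obtain ⟨s₀, hs⟩ := (h.sy (sc c 0)).coker hF g (Op40.cliff_full h.ok) (P_ne h.ok) rC_ge
  refine ⟨s₀, fun s hs' => ?_⟩
  have a := adm_sc h.adm s
  obtain ⟨_, hF, g⟩ := good_full h.ok a
  obtain ⟨η, η0, H⟩ := exq hF g (Op40.cliff_full h.ok)
    (hs s hs' _ fun x v hv => B_full h.ok h.w c.a s hv) (β := fun x => post (i1 _ ℝ) (β0 b x))
    (Cls.post (Cls.const _ _) (inB h.ok).β0 () trivial)
    (fun x v w _ _ => maps_i1 x _ (((Op40.prjm h.ok).ps (Op40.prj2 h.ok)).idem x _))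
    (i1 _ ℝ ∘L i2 (Eu ν) (F2 κ))
  refine ⟨7, η, η0, fun f hf hc => ?_⟩
  obtain ⟨u, hu⟩ := H f hf.1.choose_spec.1 hc fun x => maps_i1 x _ (maps_i2 x _ (hf.2 x))
  have e := fun x => (app_β h.ok a u.2.1 u.2.2.2 x).symm.trans
    ((map_add (f2 _ ℝ) _ (i1 _ _ _)).symm.trans (congrArg (f2 _ _) (hu x)))
  refine ⟨_, adm_vr a u.2.1 u.2.2.2, funext fun x => ?_, fun x => ?_⟩
  · simpa [sub_eq_zero] using congrArg (f2 _ _) (e x)
  · simpa [sub_eq_iff_eq_add'] using congrArg (s2 _ _) (e x)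

/-- the difference of two configurations -/
def df (c c' : Cfg X.M κ ν) (x : X.M) : Cf κ ν :=
  i1 _ _ (WithLp.toLp 2 fun i => c'.a i x - c.a i x) + i2 _ _ (c'.Φ x - c.Φ x)

theorem co_df (c c' : Cfg X.M κ ν) (x : X.M) (i : Option κ) :
    co i (df c c' x) = c'.a i x - c.a i x := by simp [df, co_apply]

theorem sp_df (c c' : Cfg X.M κ ν) (x : X.M) : sp (df c c' x) = c'.Φ x - c.Φ x := by simp [df]

theorem vr_df (c c' : Cfg X.M κ ν) : vr c (df c c') 1 = c' :=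
  Cfg.ext (funext₂ fun i x => by simp [vr, co_df]) (funext fun x => by simp [vr, sp_df])

theorem sm_df {c' : Cfg X.M κ ν} (h : b.Adm c) (h' : b.Adm c') : Sm X.I (df c c') := by
  have e : Sm X.I fun x => (WithLp.toLp 2 fun i => c'.a i x - c.a i x : Fm (Option κ) ℝ) :=
    fun x => Wz78.SA.toLp (f := fun i x => c'.a i x - c.a i x) fun i => (h'.sa i).sub (h.sa i) x
  have e1 : Sm X.I fun x => i1 _ (Eu ν) (WithLp.toLp 2 fun i => c'.a i x - c.a i x) :=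
    (i1 (Fm (Option κ) ℝ) (Eu ν)).contMDiff.comp e
  have e2 : Sm X.I fun x => i2 (Fm (Option κ) ℝ) _ (c'.Φ x - c.Φ x) :=
    (i2 (Fm (Option κ) ℝ) (Eu ν)).contMDiff.comp (h'.sΦ.sub h.sΦ)
  exact e1.add e2

theorem p_df {c' : Cfg X.M κ ν} (h : b.Adm c) (h' : b.Adm c') (x : X.M) :
    pC b x (df c c' x) = df c c' x :=
  ext2 (fm_ext fun i => by
    simp [df, Bg.p1, idx_apply, mul_sub, h.pa, h'.pa, -Fintype.sum_option])
    (by simp [df, h.pΦ, h'.pΦ])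

theorem Nr.norm {c' : Cfg X.M κ ν} {δ : ℝ} (h : Nr b c δ c') (x : X.M) :
    ‖df c c' x‖ ≤ (Fintype.card (Option κ) + 1) * δ := by
  have d : 0 ≤ δ := (norm_nonneg _).trans (h.Φ x)
  have e1 : ∑ i, co i (df c c' x) ^ 2 ≤ Fintype.card (Option κ) * δ ^ 2 :=
    (sum_le_card_nsmul _ _ _ fun i _ => by
      rw [co_df]; exact sq_le_sq' (abs_le.1 (h.a i x)).1 (abs_le.1 (h.a i x)).2).trans
      (by rw [nsmul_eq_mul, card_univ])
  have e2 : ‖sp (df c c' x)‖ ^ 2 ≤ δ ^ 2 := by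
    rw [sp_df]; exact pow_le_pow_left₀ (norm_nonneg _) (h.Φ x) 2
  refine (pow_le_pow_iff_left₀ (norm_nonneg _) (by positivity) two_ne_zero).1 ?_
  rw [nsq]
  have : (0 : ℝ) ≤ Fintype.card (Option κ) := Nat.cast_nonneg _
  nlinarith [mul_nonneg this (mul_nonneg this (sq_nonneg δ)), mul_nonneg this (sq_nonneg δ)]

theorem pt_est {V W : Type} [NormedAddCommGroup V] [NormedSpace ℝ V] [NormedAddCommGroup W]
    [InnerProductSpace ℝ W] {β : V →L[ℝ] V →L[ℝ] W} {u₁ u₂ : V} {w t : W} {C d : ℝ} (hβ : ‖β‖ ≤ C)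
    (b₁ : ‖u₁‖ ≤ d) (b₂ : ‖u₂‖ ≤ d) (e : w + β u₁ u₁ = β u₂ u₂) (hd : C * d ≤ 1 / 2)
    (ht : ‖t‖ ≤ ‖u₁ - u₂‖) : ⟪w, t⟫_ℝ ≤ ‖u₁ - u₂‖ ^ 2 := by
  have e' : w = -(β (u₁ - u₂) u₁ + β u₂ (u₁ - u₂)) := by
    rw [eq_sub_of_add_eq e]
    simp only [map_sub, sub_apply]
    abel
  have m₁ := β.le_of_opNorm₂_le_of_le hβ (le_refl ‖u₁ - u₂‖) b₁
  have m₂ := β.le_of_opNorm₂_le_of_le hβ b₂ (le_refl ‖u₁ - u₂‖)
  have m := (norm_neg _).trans_le ((norm_add_le _ _).trans (add_le_add m₁ m₂))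
  rw [← e'] at m
  refine (real_inner_le_norm _ _).trans ((mul_le_mul m ht (norm_nonneg _)
    ((norm_nonneg _).trans m)).trans ?_)
  nlinarith [mul_le_mul_of_nonneg_right hd (sq_nonneg ‖u₁ - u₂‖)]

theorem lu_pt (h : U1 b c) {s C d : ℝ} (hs : 0 < s) {c₁ c₂ : Cfg X.M κ ν} (a₁ : b.Adm c₁)
    (a₂ : b.Adm c₂) (n₁ : Nr b (sc c s) d c₁) (n₂ : Nr b (sc c s) d c₂) (eD : b.eD c₁ = b.eD c₂)
    (eC : b.eC c₁ = b.eC c₂) (x : X.M) (hβ : ‖β0 b x‖ ≤ C)
    (hd : C * ((Fintype.card (Option κ) + 1) * d) ≤ 1 / 2) {z : X.M → Cf κ ν}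
    (hz : z = df (sc c s) c₁ - df (sc c s) c₂) :
    ⟪b.F.op (full b (sc c 0)).σ (full b (sc c 0)).B z x, BB b c.Φ x (z x)⟫_ℝ ≤
      -(s / 2 - 1) * ‖z x‖ ^ 2 := by
  have a := adm_sc h.adm s
  have s₁ := sm_df a a₁
  have s₂ := sm_df a a₂
  have zx : z x = df (sc c s) c₁ x - df (sc c s) c₂ x := congrFun hz x
  have e₀ := app_add (F := b.F) (A := full b (sc c s)) (show Sm X.I z from hz ▸ s₁.sub s₂) s₂ x
  have e₁ := app_β h.ok a s₁ (p_df a a₁) x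
  have e₂ := app_β h.ok a s₂ (p_df a a₂) x
  rw [vr_df, eD, eC] at e₁
  rw [← eq_sub_iff_add_eq.1 hz] at e₁
  rw [vr_df, ← e₁, e₀, map_add, add_right_comm, add_comm (f2 _ _ _), add_left_inj,
    eq_sub_iff_add_eq.1 hz] at e₂
  have g0 : s2 _ _ (BB b c.Φ x (z x)) = 0 := by
    have k₁ := n₁.g x
    have k₂ := n₂.g x
    simp only [sc, map_smul, real_inner_smul_left, mul_eq_zero, hs.ne', false_or] at k₁ k₂
    rw [s_BB, zx, map_sub, sp_df, sp_df, sub_sub_sub_cancel_right, map_sub, a₁.pΦ, a₂.pΦ,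
      inner_sub_right, k₁, k₂, sub_zero]
  have pz : pC b x (z x) = z x := by rw [zx, map_sub, p_df a a₁, p_df a a₂]
  have e₄ : (full b (sc c s)).app b.F z x = b.F.op (full b (sc c 0)).σ (full b (sc c 0)).B z x +
      s • BB b c.Φ x (rC (1 / 2) (z x)) :=
    (congrArg (_ + ·) (B_full (u := c.Φ) h.ok h.w c.a s pz)).trans (add_assoc _ _ _).symm
  have i := iso_BB h.ok (h.adm.pΦ x) (h.one x) (z x)
  rw [pz] at i
  have nz : ‖BB b c.Φ x (z x)‖ = ‖z x‖ := by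
    rw [norm_eq_sqrt_real_inner, i, ← norm_eq_sqrt_real_inner]
  have e₇ := pt_est hβ (n₁.norm x) (n₂.norm x) e₂.symm hd (t := f2 _ _ (BB b c.Φ x (z x)))
    (by rw [← zx, ← nz]; exact WithLp.norm_fst_le _ (BB b c.Φ x (z x)))
  have e₈ := inner2 ((full b (sc c s)).app b.F z x) (BB b c.Φ x (z x))
  rw [g0, inner_zero_right, add_zero] at e₈
  rw [← e₈, ← zx, e₄, inner_add_left, real_inner_smul_left, real_inner_comm _ (BB b c.Φ x (rC _ _)), i,
    real_inner_comm (rC _ _)] at e₇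
  nlinarith [mul_le_mul_of_nonneg_left (rC_ge (z x)) hs.le]

variable (κ lam ν) in
/-- **T-LU** -/
theorem luStmt : LuStmt κ lam ν := fun X _ b c h => by
  obtain ⟨_, hF, g⟩ := good_full h.ok (adm_sc h.adm 0)
  have y := h.sy (sc c 0)
  obtain ⟨K, hK⟩ := coe b.F (fun a => (g.σ a).1) g.B.1.continuous y.sm y.sym
  obtain ⟨C, hC⟩ := (inB h.ok).β0 () trivial
  have := le_abs_self K
  have := abs_nonneg K
  refine ⟨2 * |K| + 3, fun s hs => ⟨1 / (2 * (|C 0| + 1) * (Fintype.card (Option κ) + 1)),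
    by positivity, fun c₁ c₂ a₁ a₂ n₁ n₂ eD eC => ?_⟩⟩
  have a := adm_sc h.adm s
  have e := hK _ ((sm_df a a₁).sub (sm_df a a₂)) (s / 2 - 1) (by linarith) fun x =>
    lu_pt h (by linarith) a₁ a₂ n₁ n₂ eD eC x ((CB_bound (hC.2 0) x).trans (le_abs_self _)) ?_ rfl
  · rw [← vr_df (sc c s) c₁, sub_eq_zero.1 e, vr_df]
  · have := abs_nonneg (C 0)
    field_simp
    linarith

end Crest.Agent.X212.Tbs74
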