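import Crest.Agent.X212.Tbs74.Coe
import Crest.Agent.X212.Map77.IxO
import Crest.Agent.X212.Sw88.Wz

/-!
# Row 212, TAUB-S (helper74): the coupling term of a unit spinor
-/

set_option autoImplicit false
set_option linter.unusedSectionVars false
noncomputable section
open scoped Manifold ContDiff Topology InnerProductSpace
open MeasureTheory Set Function Filter Finset

namespace Crest.Agent.X212.Tbs74
open An An.Pre Sob92 Ell97 Sw Map77.S
open Map77 hiding Cf Ef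
open Sw88 (p8 inner_F2)

variable {κ lam ν : Type} [Fintype κ] [Fintype lam] [Fintype ν] [DecidableEq ν]
  {E : Type} [NormedAddCommGroup E] [NormedSpace ℝ E] [FiniteDimensional ℝ E]
  [MeasurableSpace E] [BorelSpace E]
  {HM : Type} [TopologicalSpace HM] {I : ModelWithCorners ℝ E HM}
  {M : Type} [TopologicalSpace M] [ChartedSpace HM M] [IsManifold I ∞ M] [MeasurableSpace M]
  {b : Bg I M κ lam ν 0} {u : M → Eu ν} {x : M}

variable (b u x) in
/-- the coupling term -/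
def B0 : Cf κ ν →L[ℝ] Ef κ ν :=
  pr2 (pr2 (∑ i, (co i).smulRight (b.m.ρ i x (b.jp x (u x))))
    ((-2 : ℝ) • ((qL b x (u x) + (qL b x).flip (u x)) ∘L sp))) (innerSL ℝ (b.m.J (u x)) ∘L sp)

variable (b u x) in
/-- its compression -/
def BB : Cf κ ν →L[ℝ] Ef κ ν := pE b x ∘L B0 b u x ∘L pC b x

variable (hb : b.OK) (hu : b.pp x (u x) = u x)
include hb hu

theorem jp_u : b.jp x (u x) = b.m.J (u x) := by
  rw [Bg.jp, mul_apply_eq_comp, (p8 hb x).p_of hu]

theorem ff_BB (w : Cf κ ν) : f2 _ _ (f2 _ _ (BB b u x w)) =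
    ∑ i, b.p1 x (f2 _ _ w) i • b.m.ρ i x (b.m.J (u x)) := by
  have := fun i => (Op40.pc hb x).pm_ρ ((Op40.pc hb x).pp_J hu) i
  simp only [BB, B0, ContinuousLinearMap.comp_apply, f2_ps, f2_pr2, _root_.sum_apply, map_sum,
    ContinuousLinearMap.smulRight_apply, map_smul, jp_u hb hu, co_apply]
  exact sum_congr rfl fun i _ => congrArg _ (this i)

theorem sf_BB (w : Cf κ ν) (s : Option κ × Option κ) : s2 _ _ (f2 _ _ (BB b u x w)) s =
    -(⟪b.m.ρ s.1 x (b.m.ρ s.2 x (b.m.J (u x))), b.pp x (sp w)⟫_ℝ +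
      b.B.P s.1 s.2 x * ⟪b.m.J (u x), b.pp x (sp w)⟫_ℝ) / 2 := by
  have P := p8 hb x
  have hw := (Op40.prjp hb).idem x (sp w)
  have e1 := Sw88.p2_qd hb hw (u x) s
  have e2 := Sw88.p2_qd hb hu (b.pp x (sp w)) s
  simp only [BB, B0, ContinuousLinearMap.comp_apply, f2_ps, f2_pr2, s2_ps, s2_pr2, map_smul,
    smul_apply, add_apply, ContinuousLinearMap.flip_apply, qL_apply, map_add, PiLp.smul_apply,
    PiLp.add_apply, e1, e2, smul_eq_mul]
  set ψ := b.pp x (sp w)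
  have e3 : ⟪b.m.J (b.m.ρ s.1 x (b.m.ρ s.2 x ψ)), u x⟫_ℝ =
      -⟪b.m.ρ s.2 x (b.m.ρ s.1 x (b.m.J (u x))), ψ⟫_ℝ := by
    rw [P.Js, P.ρs s.1, P.ρs s.2, neg_neg, real_inner_comm]
  rw [P.rel s.2 s.1, P.p_of (P.pp_J hu), P.pr.symm s.2 s.1] at e3
  simp only [Bg.qd, e3]
  simp only [P.J_ρ, P.Js ψ, inner_sub_left, inner_neg_left, real_inner_smul_left]
  rw [real_inner_comm (b.m.J (u x)) ψ]
  ring

omit hb hu in
theorem s_BB (w : Cf κ ν) : s2 _ _ (BB b u x w) = ⟪b.m.J (u x), b.pp x (sp w)⟫_ℝ := by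
  simp [BB, B0, triv]

theorem sym_BB (c : Cfg M κ ν) (a : Option κ) (v w : Cf κ ν) :
    ⟪(full b c).σ a x v, BB b u x w⟫_ℝ =
      -(∑ k, b.p1 x (f2 _ _ v) k * ⟪b.m.ρ a x (b.m.ρ k x (b.m.J (u x))), b.pp x (sp w)⟫_ℝ +
        ∑ k, b.p1 x (f2 _ _ w) k * ⟪b.m.ρ a x (b.m.ρ k x (b.m.J (u x))), b.pp x (sp v)⟫_ℝ) := by
  have q : pE b x (BB b u x w) = BB b u x w := (Op40.prjE hb).idem x _
  have q1 : b.pm x (f2 _ _ (f2 _ _ (BB b u x w))) = f2 _ _ (f2 _ _ (BB b u x w)) := by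
    simpa only [f2_ps] using congrArg (fun z => f2 _ _ (f2 _ _ z)) q
  have q2 : b.p2 x (s2 _ _ (f2 _ _ (BB b u x w))) = s2 _ _ (f2 _ _ (BB b u x w)) := by
    simpa only [f2_ps, s2_ps] using congrArg (fun z => s2 _ _ (f2 _ _ z)) q
  rw [← (Op40.alg_full hb).σp, ← inner_tr, Op40.tr_full hb, q1, q2, inner2, ff_BB hb hu,
    show (full b c).p x v = pC b x v from rfl, f2_ps, s2_ps, neg_add]
  simp only [map_sub, f2_i1, f2_i2, s2_i1, s2_i2, sub_zero, zero_sub, inner_neg_right, sf_BB hb hu,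
    s_BB]
  rw [inner_fm, ← sum_neg_distrib, map_sum, inner_sum]
  refine congrArg₂ (· + ·) (sum_congr rfl fun k _ => ?_) (congrArg _ (sum_congr rfl fun k _ => ?_))
  · simp only [RCLike.inner_apply, conj_trivial, (hb.B.pr x).symm a]
    ring
  · rw [map_smul, real_inner_smul_right, real_inner_comm]

theorem iso_BB (h1 : ‖u x‖ = 1) (v w : Cf κ ν) : ⟪BB b u x v, BB b u x w⟫_ℝ = ⟪pC b x v, w⟫_ℝ := by
  have P := p8 hb x
  have hJ := P.pp_J hu
  have n1 : ⟪b.m.J (u x), b.m.J (u x)⟫_ℝ = 1 := by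
    rw [P.Js, P.J_J (P.p_of hu), inner_neg_right, neg_neg, real_inner_self_eq_norm_sq, h1, one_pow]
  have hw := (Op40.prjp hb).idem x (sp w)
  have e2 := congrArg (⟪·, b.pp x (sp w)⟫_ℝ) (P.par2 hJ (b.pp x (sp v)))
  have e3 := fun y => congrArg (fun T => ⟪T (b.m.J (u x)), y⟫_ℝ) P.sum_sq
  have e4 : ∀ y, ∑ i, ∑ j, b.B.P i j x * ⟪b.m.ρ i x (b.m.ρ j x (b.m.J (u x))), y⟫_ℝ =
      -4 * ⟪b.m.J (u x), y⟫_ℝ := fun y => by
    have e := e3 y
    simp only [_root_.sum_apply, mul_apply_eq_comp, smul_apply, P.p_of hJ, sum_inner,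
      real_inner_smul_left] at e
    refine (sum_congr rfl fun i _ => ?_).trans e
    conv_rhs => rw [← P.sum_ρ i (b.m.J (u x))]
    simp only [map_sum, map_smul, sum_inner, real_inner_smul_left]
  have e5 : ∑ i, ∑ j, b.B.P i j x * b.B.P i j x = 4 := by
    rw [← P.four]
    exact sum_congr rfl fun i _ => (sum_congr rfl fun j _ => by rw [P.pr.symm j i]).trans
      (P.pr.idem i i)
  have e6 : ⟪pC b x v, w⟫_ℝ =
      ⟪b.p1 x (f2 _ _ v), b.p1 x (f2 _ _ w)⟫_ℝ + ⟪b.pp x (sp v), b.pp x (sp w)⟫_ℝ := by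
    rw [← (Op40.prj1 hb).symm, (Op40.prj1 hb).idem, ← (Op40.prjp hb).symm, (Op40.prjp hb).idem,
      inner2, f2_ps, s2_ps]
  have e7 : ⟪f2 _ _ (f2 _ _ (BB b u x v)), f2 _ _ (f2 _ _ (BB b u x w))⟫_ℝ =
      ⟪b.p1 x (f2 _ _ v), b.p1 x (f2 _ _ w)⟫_ℝ := by
    simp only [ff_BB hb hu, sum_inner, inner_sum, real_inner_smul_left, real_inner_smul_right,
      P.inner_ρ _ _ (P.p_of hJ), n1, mul_one, inner_fm, RCLike.inner_apply, conj_trivial]
    refine sum_congr rfl fun i _ => ?_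
    conv_rhs => rw [← Op40.P_p1 hb (f2 _ _ v) i, mul_sum]
    exact sum_congr rfl fun j _ => by rw [smul_eq_mul, P.pr.symm j]; ring
  simp only [sum_inner, real_inner_smul_left, n1, mul_one] at e2
  change _ = 4 * ⟪b.pp x (b.pp x (sp v)), _⟫_ℝ at e2
  rw [(Op40.prjp hb).idem] at e2
  rw [e6, inner2, inner2, e7, inner_F2, s_BB, s_BB, add_assoc, RCLike.inner_apply, conj_trivial]
  simp only [sf_BB hb hu]
  have e8 := e4 (b.pp x (sp v))
  have e9 := e4 (b.pp x (sp w))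
  generalize ⟪b.m.J (u x), b.pp x (sp v)⟫_ℝ = t at *
  generalize ⟪b.m.J (u x), b.pp x (sp w)⟫_ℝ = r at *
  have e : ∀ m n p : ℝ, -(m + p * t) / 2 * (-(n + p * r) / 2) =
      (m * n + r * (p * m) + t * (p * n) + t * r * (p * p)) / 4 := fun _ _ _ => by ring
  simp only [e, ← sum_div, sum_add_distrib, ← mul_sum, e2, e5, e8, e9]
  ring

omit hu in
theorem B_full (hw : b.w = 1) (a : Option κ → M → ℝ) (s : ℝ) {v : Cf κ ν} (hv : pC b x v = v) :
    (full b ⟨a, fun y => s • u y⟩).B x v =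
      (full b ⟨a, fun y => (0 : ℝ) • u y⟩).B x v + s • BB b u x (rC (1 / 2) v) := by
  have e : pC b x (rC (1 / 2) v) = rC (1 / 2) v := by
    conv_rhs => rw [← hv]
    exact ext2 (by simp) (by simp)
  simp only [BB, ContinuousLinearMap.comp_apply, e, full, Map77.cut, add_apply]
  rw [← map_smul, ← map_add]
  congr 1
  rw [add_right_comm]
  congr 1
  refine ext2 (ext2 ?_ ?_) ?_
  · simp [BF, B0, Bg.W, smul_sum, smul_smul, mul_comm s, -Fintype.sum_option]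
  · simp only [BF, B0, hw, f2_pr2, s2_pr2, map_add, map_smul, sub_apply, smul_apply, add_apply,
      ContinuousLinearMap.comp_apply, s2_rC]
    module
  · simp only [BF, B0, hw, f2_pr2, s2_pr2, map_add, map_smul, smul_apply, add_apply,
      ContinuousLinearMap.comp_apply, s2_rC, smul_eq_mul]
    ring

end Crest.Agent.X212.Tbs74
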